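import Vale.Agent.P181.BL.Defs
import Vale.Agent.P181.TL.H248.LiftC
import Vale.Agent.P181.SZR5b.Mark

set_option autoImplicit false

/-!
# P181, line BL, block B1: the iterated border
-/

open MvPolynomial

namespace Vale.Agent.P181.BL.H118

open Vale.Agent.P181.T4 (HW)
open Vale.Agent.P181.TL (KK)
open Vale.Agent.P181.TL.H248 (yy Qm Qm_spec quo_props monomial_EN)
open Vale.Agent.P181.SZR5b (rc HW_rename col_rename)

/-- The specialization of one head. -/
noncomputable def fr1 (m : ℕ) (σ : Type) :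
    MvPolynomial (Fin (m + 1) × (σ ⊕ Unit)) ℂ →ₐ[ℂ] MvPolynomial (Fin (m + 1) × σ) ℂ :=
  aeval fun q => Sum.elim (fun j => X (q.1, j)) (fun _ => if q.1 = 0 then 1 else 0) q.2

lemma fr1_inl (m : ℕ) (σ : Type) (i : Fin (m + 1)) (j : σ) :
    fr1 m σ (X (i, Sum.inl j)) = X (i, j) := by
  rw [fr1, aeval_X]; rfl

lemma fr1_inr (m : ℕ) (σ : Type) (i : Fin (m + 1)) (u : Unit) :
    fr1 m σ (X (i, Sum.inr u)) = if i = 0 then 1 else 0 := by
  rw [fr1, aeval_X]; rfl

/-- One step of the border. -/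
lemma step (m : ℕ) (hm : 0 < m) (σ : Type) [Fintype σ] (c : σ → ℕ) (tau : Fin m → ℕ)
    (hc : ∑ j, c j = ∑ i, tau i) :
    ∃ Ψ : KK m σ c tau →ₗ[ℂ] MvPolynomial (Fin (m + 1) × (σ ⊕ Unit)) ℂ,
      (∀ F, Ψ F ∈ HW (m + 1) (σ ⊕ Unit) (Fin.cons (tau ⟨0, hm⟩) tau)) ∧
      (∀ F v, coeff v (Ψ F) ≠ 0 → ∀ x,
        ∑ i, v (i, x) = Sum.elim c (fun _ => tau ⟨0, hm⟩) x) ∧
      ∀ F, fr1 m σ (Ψ F) = rename (fun q : Fin m × σ => (q.1.succ, q.2))
        (F : MvPolynomial (Fin m × σ) ℂ) := by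
  obtain ⟨k, rfl⟩ : ∃ k, m = k + 1 := ⟨m - 1, by omega⟩
  refine ⟨Qm, fun F => (quo_props hc F.2 (Qm_spec F)).1,
    fun F v hv x => (quo_props hc F.2 (Qm_spec F)).2.1 v hv x, fun F => ?_⟩
  have h := congrArg (fr1 (k + 1) σ) (Qm_spec F)
  rw [map_mul, monomial_EN, map_pow, fr1_inr, if_pos rfl, one_pow, one_mul] at h
  rw [← h]
  have h2 : (fr1 (k + 1) σ).comp (aeval (yy (k := k + 1) (fun _ : σ => ()))) =
      rename (fun q : Fin (k + 1) × σ => (q.1.succ, q.2)) := by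
    apply MvPolynomial.algHom_ext
    intro q
    rw [AlgHom.comp_apply, aeval_X, yy, map_sub, map_mul, map_mul, fr1_inr, fr1_inl, fr1_inr,
      fr1_inl, if_pos rfl, if_neg (Fin.succ_ne_zero _), one_mul, zero_mul, sub_zero, rename_X]
  exact DFunLike.congr_fun h2 (F : MvPolynomial (Fin (k + 1) × σ) ℂ)

lemma ap_zero {k : ℕ} (al : ℕ → ℕ) (tau : Fin k → ℕ) :
    (ap 0 al tau : Fin (k + 0) → ℕ) = tau := by
  funext i
  rw [ap, dif_neg (Nat.not_lt_zero _)]
  rfl

lemma ap_succ {k : ℕ} (r x : ℕ) (tau : Fin k → ℕ) :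
    (ap (r + 1) (fun _ => x) tau : Fin (k + (r + 1)) → ℕ) =
      (Fin.cons x (ap r (fun _ => x) tau) : Fin (k + r + 1) → ℕ) := by
  funext i
  refine Fin.cases (motive := fun i : Fin (k + r + 1) =>
    (ap (r + 1) (fun _ => x) tau : Fin (k + (r + 1)) → ℕ) i =
      (Fin.cons x (ap r (fun _ => x) tau) : Fin (k + r + 1) → ℕ) i) ?_ (fun i => ?_) i
  · rw [Fin.cons_zero, ap, dif_pos]
    exact Nat.succ_pos r
  · rw [Fin.cons_succ]
    by_cases h : (i : ℕ) < r
    · rw [ap, dif_pos (show ((i.succ : Fin (k + r + 1)) : ℕ) < r + 1 by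
        rw [Fin.val_succ]; omega), ap, dif_pos h]
    · rw [ap, dif_neg (show ¬ ((i.succ : Fin (k + r + 1)) : ℕ) < r + 1 by
        rw [Fin.val_succ]; omega), ap, dif_neg h]
      congr 1
      apply Fin.ext
      show ((i.succ : Fin (k + r + 1)) : ℕ) - (r + 1) = (i : ℕ) - r
      rw [Fin.val_succ]
      omega

lemma sum_ap {k : ℕ} (r x : ℕ) (tau : Fin k → ℕ) :
    ∑ i, (ap r (fun _ => x) tau : Fin (k + r) → ℕ) i = r * x + ∑ i, tau i := by
  induction r with
  | zero =>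
    rw [ap_zero, zero_mul, zero_add]
    rfl
  | succ r ih =>
    rw [ap_succ]
    refine (Fin.sum_cons x (ap r (fun _ => x) tau)).trans ?_
    rw [ih]
    ring

lemma ap_at_zero {k : ℕ} (r : ℕ) (tau : Fin (k + 1) → ℕ) (h : 0 < k + 1 + r) :
    (ap r (fun _ => tau 0) tau : Fin (k + 1 + r) → ℕ) ⟨0, h⟩ = tau 0 := by
  by_cases h0 : 0 < r
  · rw [ap, dif_pos h0]
  · rw [ap, dif_neg h0]
    congr 1
    apply Fin.ext
    show 0 - r = 0
    omega

section spec

variable {ι η : Type} {n r : ℕ} (g : η → Fin r)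

lemma fr_inl (i : Fin n) (j : ι) :
    fr n (ι := ι) g (X (i, Sum.inl j)) = X (i, j) := by
  rw [fr, aeval_X]; rfl

lemma fr_inr (i : Fin n) (h : η) :
    fr n (ι := ι) g (X (i, Sum.inr h)) = if (i : ℕ) = (g h : ℕ) then 1 else 0 := by
  rw [fr, aeval_X]; rfl

/-- The specialization after one step. -/
noncomputable def fr2 (m r : ℕ) (ι : Type) :
    MvPolynomial (Fin (m + 1) × (ι ⊕ Fin r)) ℂ →ₐ[ℂ] MvPolynomial (Fin (m + 1) × ι) ℂ :=
  aeval fun q => Sum.elim (fun j => X (q.1, j))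
    (fun h => if (q.1 : ℕ) = (h : ℕ) + 1 then 1 else 0) q.2

lemma fr2_inl (m : ℕ) (i : Fin (m + 1)) (j : ι) :
    fr2 m r ι (X (i, Sum.inl j)) = X (i, j) := by
  rw [fr2, aeval_X]; rfl

lemma fr2_inr (m : ℕ) (i : Fin (m + 1)) (h : Fin r) :
    fr2 m r ι (X (i, Sum.inr h)) = if (i : ℕ) = (h : ℕ) + 1 then 1 else 0 := by
  rw [fr2, aeval_X]; rfl

end spec

/-- The new head is the head of the top row. -/
def nh (ι : Type) (r : ℕ) : (ι ⊕ Fin r) ⊕ Unit → ι ⊕ Fin (r + 1) :=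
  Sum.elim (Sum.map id Fin.succ) (fun _ => Sum.inr 0)

lemma nh_inj (ι : Type) (r : ℕ) : Function.Injective (nh ι r) := by
  rintro ((j | h) | u) ((j' | h') | u') hh
  · simp only [nh, Sum.elim_inl, Sum.map_inl, id, Sum.inl.injEq] at hh
    rw [hh]
  · simp [nh] at hh
  · simp [nh] at hh
  · simp [nh] at hh
  · simp only [nh, Sum.elim_inl, Sum.map_inr, Sum.inr.injEq, Fin.succ_inj] at hh
    rw [hh]
  · simp only [nh, Sum.elim_inl, Sum.map_inr, Sum.elim_inr, Sum.inr.injEq] at hh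
    exact absurd hh (Fin.succ_ne_zero _)
  · simp [nh] at hh
  · simp only [nh, Sum.elim_inl, Sum.map_inr, Sum.elim_inr, Sum.inr.injEq] at hh
    exact absurd hh.symm (Fin.succ_ne_zero _)
  · rfl

lemma comp1 (ι : Type) (m r : ℕ) :
    (fr (m + 1) (ι := ι) (id : Fin (r + 1) → Fin (r + 1))).comp
      (rename (R := ℂ) (rc (m + 1) (nh ι r))) = (fr2 m r ι).comp (fr1 m (ι ⊕ Fin r)) := by
  apply MvPolynomial.algHom_ext
  rintro ⟨i, ((j | h) | u)⟩
  · rw [AlgHom.comp_apply, AlgHom.comp_apply, rename_X, fr1_inl, fr2_inl]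
    exact fr_inl _ i j
  · rw [AlgHom.comp_apply, AlgHom.comp_apply, rename_X, fr1_inl, fr2_inr]
    exact fr_inr _ i h.succ
  · rw [AlgHom.comp_apply, AlgHom.comp_apply, rename_X, fr1_inr]
    refine (fr_inr _ i 0).trans ?_
    by_cases hi : i = 0
    · rw [if_pos hi, map_one, if_pos]
      rw [hi]
      rfl
    · rw [if_neg hi, map_zero, if_neg]
      intro h
      exact hi (Fin.ext h)

lemma comp2 (ι : Type) (m r : ℕ) :
    (fr2 m r ι).comp (rename (R := ℂ) (fun q : Fin m × (ι ⊕ Fin r) => (q.1.succ, q.2))) =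
      (rename (R := ℂ) (fun q : Fin m × ι => (q.1.succ, q.2))).comp
        (fr m (ι := ι) (id : Fin r → Fin r)) := by
  apply MvPolynomial.algHom_ext
  rintro ⟨i, (j | h)⟩
  · rw [AlgHom.comp_apply, AlgHom.comp_apply, rename_X, fr_inl, rename_X]
    exact fr2_inl m i.succ j
  · rw [AlgHom.comp_apply, AlgHom.comp_apply, rename_X, fr_inr]
    refine (fr2_inr m i.succ h).trans ?_
    by_cases hi : (i : ℕ) = (h : ℕ)
    · rw [if_pos (show ((i.succ : Fin (m + 1)) : ℕ) = (h : ℕ) + 1 by rw [Fin.val_succ, hi]),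
        if_pos (show (i : ℕ) = ((id h : Fin r) : ℕ) from hi), map_one]
    · rw [if_neg (show ¬ ((i.succ : Fin (m + 1)) : ℕ) = (h : ℕ) + 1 by
          rw [Fin.val_succ]; omega),
        if_neg (show ¬ (i : ℕ) = ((id h : Fin r) : ℕ) from hi), map_zero]

/-- **(B1)**. -/
theorem bordR : BordR := by
  intro r
  induction r with
  | zero =>
    intro k ι _ c tau hc
    refine ⟨(rename (R := ℂ) (rc (k + 1) (Sum.inl : ι → ι ⊕ Fin 0))).toLinearMap ∘ₗ
      (KK (k + 1) ι c tau).subtype, fun F => ?_, fun F v hv x => ?_, fun F => ?_⟩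
    · rw [ap_zero]
      exact HW_rename _ F.2.1
    · refine col_rename (n := k + 1) (e := (Sum.inl : ι → ι ⊕ Fin 0)) Sum.inl_injective
        (d := c) (d' := Sum.elim c (fun _ => tau 0)) (fun j => rfl) ?_ F.2.2 v hv x
      rintro (j | h) hj
      · exact absurd ⟨j, rfl⟩ hj
      · exact h.elim0
    · have h2 : (fr (k + 1 + 0) (ι := ι) (id : Fin 0 → Fin 0)).comp
          (rename (R := ℂ) (rc (k + 1) (Sum.inl : ι → ι ⊕ Fin 0))) =
          rename (R := ℂ) (fun q : Fin (k + 1) × ι => (lo 0 q.1, q.2)) := by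
        apply MvPolynomial.algHom_ext
        rintro ⟨i, j⟩
        rw [AlgHom.comp_apply, rename_X, rename_X]
        exact fr_inl _ i j
      exact DFunLike.congr_fun h2 (F : MvPolynomial (Fin (k + 1) × ι) ℂ)
  | succ r ih =>
    intro k ι _ c tau hc
    obtain ⟨Ψ, h1, h2, h3⟩ := ih k ι c tau hc
    have hmem : ∀ F, Ψ F ∈ KK (k + 1 + r) (ι ⊕ Fin r) (Sum.elim c (fun _ => tau 0))
        (ap r (fun _ => tau 0) tau) := fun F => ⟨h1 F, h2 F⟩
    have hsum : ∑ x : ι ⊕ Fin r, Sum.elim c (fun _ => tau 0) x =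
        ∑ i, (ap r (fun _ => tau 0) tau : Fin (k + 1 + r) → ℕ) i := by
      rw [sum_ap, Fintype.sum_sum_type]
      simp only [Sum.elim_inl, Sum.elim_inr, Finset.sum_const, Finset.card_univ,
        Fintype.card_fin, smul_eq_mul]
      rw [hc, add_comm]
    obtain ⟨Φ, g1, g2, g3⟩ := step (k + 1 + r) (by omega) (ι ⊕ Fin r)
      (Sum.elim c (fun _ => tau 0)) (ap r (fun _ => tau 0) tau) hsum
    refine ⟨(rename (R := ℂ) (rc (k + 1 + r + 1) (nh ι r))).toLinearMap ∘ₗ Φ ∘ₗ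
      (LinearMap.codRestrict _ Ψ hmem), fun F => ?_, fun F v hv x => ?_, fun F => ?_⟩
    · rw [ap_succ]
      have h4 := g1 (LinearMap.codRestrict _ Ψ hmem F)
      rw [ap_at_zero] at h4
      exact HW_rename (nh ι r) h4
    · refine col_rename (n := k + 1 + r + 1) (nh_inj ι r)
        (d := Sum.elim (Sum.elim c (fun _ => tau 0)) (fun _ => tau 0))
        (d' := Sum.elim c (fun _ => tau 0)) ?_ ?_
        (f := Φ (LinearMap.codRestrict _ Ψ hmem F)) ?_ v hv x
      · rintro ((j | h) | u)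
        · rfl
        · rfl
        · rfl
      · rintro (j | h) hj
        · exact absurd ⟨Sum.inl (Sum.inl j), rfl⟩ hj
        · refine absurd ?_ hj
          refine Fin.cases ?_ (fun h => ?_) h
          · exact ⟨Sum.inr (), rfl⟩
          · exact ⟨Sum.inl (Sum.inr h), rfl⟩
      · intro v hv x
        have h5 := g2 _ v hv x
        rw [ap_at_zero] at h5
        exact h5
    · have e1 := DFunLike.congr_fun (comp1 ι (k + 1 + r) r)
        (Φ (LinearMap.codRestrict _ Ψ hmem F))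
      have e2 := DFunLike.congr_fun (comp2 ι (k + 1 + r) r) (Ψ F)
      rw [AlgHom.comp_apply, AlgHom.comp_apply] at e1 e2
      have e3 : fr1 (k + 1 + r) (ι ⊕ Fin r) (Φ (LinearMap.codRestrict _ Ψ hmem F)) =
          rename (fun q : Fin (k + 1 + r) × (ι ⊕ Fin r) => (q.1.succ, q.2)) (Ψ F) :=
        g3 (LinearMap.codRestrict _ Ψ hmem F)
      rw [e3, e2, h3 F, rename_rename] at e1
      refine e1.trans ?_
      congr 1

end Vale.Agent.P181.BL.H118
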