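import Vale.Agent.P181.BL.Defs
import Vale.Agent.P181.SZR5.Minor
import Vale.Agent.P181.SZR5b.Mark

set_option autoImplicit false

/-!
# P181, line BL, block B2: the minors of the top rows
-/

open MvPolynomial

namespace Vale.Agent.P181.BL.H118

open Vale.Agent.P181.T4 (HW)

/-- **(B2)**. -/
theorem minR : MinR := by
  intro n r σ _ _ hr e
  rcases r with _ | r
  · have h1 : Matrix.det (fun i l : Fin 0 =>
        (X (Fin.castLE hr i, e l) : MvPolynomial (Fin n × σ) ℂ)) = 1 := Matrix.det_isEmpty
    rw [h1]
    refine ⟨?_, fun v hv x => ?_⟩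
    · have h2 : (fun i : Fin n => if (i : ℕ) < 0 then 1 else 0) = (0 : Fin n → ℕ) := by
        funext i
        simp
      rw [h2]
      exact SZR5b.HW_one
    · rw [SZR5.Col.one v hv x]
      simp
  · have h1 : Matrix.det (fun i l : Fin (r + 1) =>
        (X (Fin.castLE hr i, e l) : MvPolynomial (Fin n × σ) ℂ)) = SZR5.minor hr e := rfl
    rw [h1]
    refine ⟨?_, fun v hv x => ?_⟩
    · have h2 : (fun i : Fin n => if (i : ℕ) < r + 1 then 1 else 0) =
          (fun i : Fin n => if (i : ℕ) ≤ r then 1 else 0) := by
        funext i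
        simp only [Nat.lt_succ_iff]
      rw [h2]
      exact SZR5.minor_HW hr e
    · rw [SZR5.minor_col hr e v hv x, Finset.sum_apply, Finset.card_filter]
      refine Finset.sum_congr rfl fun l _ => ?_
      rw [Pi.single_apply]
      simp only [eq_comm]

end Vale.Agent.P181.BL.H118
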